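import Vale.Agent.P111.H273.System

/-! The dual of a finite `ℓ₂`-sum has the cotype of the dual. -/

namespace Vale.Agent.P111.EZ

open Finset Vale.Agent.P111

variable {X : Type*} [NormedAddCommGroup X] [NormedSpace ℝ X]

/-- The inclusion of a coordinate in the `ℓ₂`-sum. -/
noncomputable def inc (X : Type*) [NormedAddCommGroup X] [NormedSpace ℝ X] {Γ : Type} [Fintype Γ]
    [DecidableEq Γ] (γ : Γ) : X →L[ℝ] PiLp 2 (fun _ : Γ => X) :=
  ((PiLp.continuousLinearEquiv 2 ℝ (fun _ : Γ => X)).symm : _ →L[ℝ] _) ∘L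
    ContinuousLinearMap.single ℝ (fun _ : Γ => X) γ

/-- The coordinates of a functional on an `ℓ₂`-sum. -/
noncomputable def coords {Γ : Type} [Fintype Γ] [DecidableEq Γ]
    (y : PiLp 2 (fun _ : Γ => X) →L[ℝ] ℝ) : PiLp 2 (fun _ : Γ => X →L[ℝ] ℝ) :=
  WithLp.toLp 2 fun γ => y.comp (inc X γ)

variable {Γ : Type} [Fintype Γ] [DecidableEq Γ]

theorem coords_add (y z : PiLp 2 (fun _ : Γ => X) →L[ℝ] ℝ) :
    coords (y + z) = coords y + coords z := by
  ext γ x
  simp [coords]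

theorem coords_smul (c : ℝ) (y : PiLp 2 (fun _ : Γ => X) →L[ℝ] ℝ) :
    coords (c • y) = c • coords y := by
  ext γ x
  simp [coords]

/-- `coords` as a linear map. -/
noncomputable def coordsL : (PiLp 2 (fun _ : Γ => X) →L[ℝ] ℝ) →ₗ[ℝ]
    PiLp 2 (fun _ : Γ => X →L[ℝ] ℝ) where
  toFun := coords
  map_add' := coords_add
  map_smul' := coords_smul

theorem apply_eq (y : PiLp 2 (fun _ : Γ => X) →L[ℝ] ℝ) (h : PiLp 2 (fun _ : Γ => X)) :
    y h = ∑ γ, coords y γ (h γ) := by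
  have h1 : h = ∑ γ, inc X γ (h γ) := by
    ext γ'
    have h2 : (∑ γ, inc X γ (h γ)) γ' = ∑ γ, (inc X γ (h γ)) γ' := by
      simp
    rw [h2]
    have h3 : ∀ γ, (inc X γ (h γ)) γ' = if γ' = γ then h γ else 0 := by
      intro γ
      simp only [inc, ContinuousLinearMap.comp_apply, ContinuousLinearEquiv.coe_coe,
        PiLp.coe_symm_continuousLinearEquiv, ContinuousLinearMap.single_apply]
      by_cases hγ : γ' = γ
      · subst hγ
        simp
      · simp [hγ]
    simp only [h3]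
    simp
  calc y h = y (∑ γ, inc X γ (h γ)) := by rw [← h1]
    _ = ∑ γ, y (inc X γ (h γ)) := map_sum _ _ _
    _ = _ := rfl

theorem norm_coords (y : PiLp 2 (fun _ : Γ => X) →L[ℝ] ℝ) : ‖coords y‖ = ‖y‖ := by
  apply le_antisymm
  · -- near norming vectors
    have hmain : ∀ δ : ℝ, 0 < δ → δ < 1 → (1 - δ) * ‖coords y‖ ≤ ‖y‖ := by
      intro δ h0 h1
      choose x hx1 hx2 using fun γ => exists_near_norming (coords y γ) h0 h1
      set h : PiLp 2 (fun _ : Γ => X) := WithLp.toLp 2 x with hh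
      have e1 : ‖h‖ ≤ ‖coords y‖ := by
        have := PiLp.norm_sq_eq_of_L2 (fun _ : Γ => X) h
        have h2 := PiLp.norm_sq_eq_of_L2 (fun _ : Γ => X →L[ℝ] ℝ) (coords y)
        have h3 : ‖h‖ ^ 2 ≤ ‖coords y‖ ^ 2 := by
          rw [this, h2]
          exact Finset.sum_le_sum fun γ _ => pow_le_pow_left₀ (norm_nonneg _) (hx1 γ) 2
        exact le_of_sq_le_sq h3 (norm_nonneg _)
      have e2 : (1 - δ) * ‖coords y‖ ^ 2 ≤ y h := by
        rw [apply_eq, PiLp.norm_sq_eq_of_L2 (fun _ : Γ => X →L[ℝ] ℝ) (coords y), Finset.mul_sum]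
        exact Finset.sum_le_sum fun γ _ => hx2 γ
      have e3 : y h ≤ ‖y‖ * ‖coords y‖ := by
        calc y h ≤ ‖y h‖ := Real.le_norm_self _
          _ ≤ ‖y‖ * ‖h‖ := y.le_opNorm h
          _ ≤ ‖y‖ * ‖coords y‖ := mul_le_mul_of_nonneg_left e1 (norm_nonneg _)
      rcases (norm_nonneg (coords y)).eq_or_lt with h4 | h4
      · rw [← h4, mul_zero]
        exact norm_nonneg _
      · have e4 : ((1 - δ) * ‖coords y‖) * ‖coords y‖ ≤ ‖y‖ * ‖coords y‖ := by
          calc _ = (1 - δ) * ‖coords y‖ ^ 2 := by ring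
            _ ≤ _ := e2.trans e3
        exact le_of_mul_le_mul_right e4 h4
    refine le_of_forall_pos_le_add fun t ht => ?_
    by_contra hcon
    push Not at hcon
    set N := ‖coords y‖ with hN
    have hN0 : 0 < N := by
      have := norm_nonneg y
      linarith
    have hδ0 : 0 < min (t / N) (1 / 2) := lt_min (by positivity) (by norm_num)
    have h5 := hmain (min (t / N) (1 / 2)) hδ0 (lt_of_le_of_lt (min_le_right _ _) (by norm_num))
    have h6 : min (t / N) (1 / 2) * N ≤ t := by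
      calc min (t / N) (1 / 2) * N ≤ (t / N) * N :=
            mul_le_mul_of_nonneg_right (min_le_left _ _) hN0.le
        _ = t := by field_simp
    nlinarith
  · refine ContinuousLinearMap.opNorm_le_bound _ (norm_nonneg _) fun h => ?_
    rw [apply_eq, Real.norm_eq_abs]
    calc |∑ γ, coords y γ (h γ)| ≤ ∑ γ, |coords y γ (h γ)| := Finset.abs_sum_le_sum_abs _ _
      _ ≤ ∑ γ, ‖coords y γ‖ * ‖h γ‖ :=
          Finset.sum_le_sum fun γ _ => (coords y γ).le_opNorm _
      _ ≤ √(∑ γ, ‖coords y γ‖ ^ 2) * √(∑ γ, ‖h γ‖ ^ 2) := by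
          rw [← Real.sqrt_mul (Finset.sum_nonneg fun l _ => sq_nonneg _)]
          exact Real.le_sqrt_of_sq_le (Finset.sum_mul_sq_le_sq_mul_sq _ _ _)
      _ = ‖coords y‖ * ‖h‖ := by
          rw [← PiLp.norm_sq_eq_of_L2 (fun _ : Γ => X →L[ℝ] ℝ) (coords y),
            ← PiLp.norm_sq_eq_of_L2 (fun _ : Γ => X) h, Real.sqrt_sq (norm_nonneg _),
            Real.sqrt_sq (norm_nonneg _)]

/-- Cotype passes to the dual of a finite `ℓ₂`-sum. -/
theorem cotype_dual_pilp {r C : ℝ} (hr : 2 ≤ r) (hC : 0 ≤ C)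
    (h : CotypeWith r C (X →L[ℝ] ℝ)) (Γ : Type) [Fintype Γ] [DecidableEq Γ] :
    CotypeWith r C (PiLp 2 (fun _ : Γ => X) →L[ℝ] ℝ) := by
  intro n y
  have h1 := HM.cotypeWith_pilp hr hC h Γ n fun i => coords (y i)
  have h2 : ∀ ε : Fin n → ℤˣ, ‖∑ i, sg (ε i) • coords (y i)‖ = ‖∑ i, sg (ε i) • y i‖ := by
    intro ε
    rw [← norm_coords (∑ i, sg (ε i) • y i)]
    congr 1
    have h3 : coords (∑ i, sg (ε i) • y i) = coordsL (∑ i, sg (ε i) • y i) := rfl
    rw [h3, map_sum]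
    refine Finset.sum_congr rfl fun i _ => ?_
    rw [map_smul]
    rfl
  simp only [h2, norm_coords] at h1
  exact h1

end Vale.Agent.P111.EZ
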