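import Vale.Agent.P111.EZ.Sys2
import Vale.Agent.P111.EZ.Dual

/-! A dimension free bound for the number of large Rademacher coefficients implies the
cotype-cotype conjecture. -/

namespace Vale.Agent.P111.EZ

open Finset Vale.Agent.P111

universe u

theorem CotypeWith.mono' {q C C' : ℝ} {Y : Type*} [NormedAddCommGroup Y] [NormedSpace ℝ Y]
    (h : CotypeWith q C Y) (hC : C ≤ C') : CotypeWith q C' Y := by
  intro n y
  refine (h n y).trans (mul_le_mul_of_nonneg_right hC ?_)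
  exact Real.rpow_nonneg (avg_nonneg fun _ => sq_nonneg _) _

/-- At most `K` Rademacher coefficients are large, for operators on `Y`. -/
def Count (K : ℝ) (Y : Type u) [NormedAddCommGroup Y] [NormedSpace ℝ Y] : Prop :=
  ∀ T : Y →L[ℝ] Y, FiniteDimensional ℝ (LinearMap.range (T : Y →ₗ[ℝ] Y)) → ‖T‖ ≤ 1 →
    ∀ (D : ℕ) (θ : (Fin D → ℤˣ) → (Y →L[ℝ] ℝ)), (∀ x, ‖θ x‖ ≤ 1) →
      (#{k : Fin D | 1 / 10000000 ≤ ‖avg fun x => sg (x k) • (θ x).comp T‖} : ℝ) ≤ K

variable {X : Type u} [NormedAddCommGroup X] [NormedSpace ℝ X]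

theorem phi_le {V : X →L[ℝ] X} {I : Type} [Fintype I] [DecidableEq I] {v : Finset I → ℝ}
    (hv : Bd V v 1) (J : Finset I) {f : (I → ℤˣ) → X} {g : (I → ℤˣ) → (X →L[ℝ] ℝ)}
    (hf : nrm f ≤ 1) (hg : nrm g ≤ 1) (x : I → ℤˣ) :
    |∑ S, v S * (wc S g) (V (wc S f)) * walsh (S ∩ J) x| ≤ 1 := by
  have h1 := hv (fun ω => f (pj J x * ω)) g
  have h2 : nrm (fun ω => f (pj J x * ω)) = nrm f :=
    nrm_comp_equiv (Equiv.mulLeft (pj J x)) f
  rw [h2, one_mul] at h1
  have h3 : ∑ S, v S * (wc S g) (V (wc S fun ω => f (pj J x * ω))) =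
      ∑ S, v S * (wc S g) (V (wc S f)) * walsh (S ∩ J) x := by
    refine Finset.sum_congr rfl fun S _ => ?_
    rw [wc_translate, walsh_pj, map_smul, map_smul, smul_eq_mul]
    ring
  rw [h3] at h1
  refine h1.trans ?_
  exact mul_le_one₀ hf (nrm_nonneg g) hg

theorem pn_of_count {V : X →L[ℝ] X} (hVf : FiniteDimensional ℝ (LinearMap.range (V : X →ₗ[ℝ] X)))
    {κ K : ℝ} (hP : PP V κ)
    (hK : ∀ (Γ : Type) [Fintype Γ] [DecidableEq Γ], Count K (PiLp 2 fun _ : Γ => X))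
    {n : ℕ} (hn : max K 1 ≤ √(n : ℝ)) : PN V n (√(n : ℝ) / 1000) := by
  intro I _ _ J v hJ hv f g
  by_contra hcon
  push Not at hcon
  have hn1 : 1 ≤ √(n : ℝ) := (le_max_right _ _).trans hn
  have hn0 : 0 < √(n : ℝ) := by linarith
  -- the norms do not vanish
  have hnf : 0 < nrm f := by
    rcases (nrm_nonneg f).eq_or_lt with h0 | h0
    · exfalso
      have := hP I J v hv f g
      rw [← h0, zero_mul, mul_zero] at this hcon
      linarith
    · exact h0
  have hng : 0 < nrm g := by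
    rcases (nrm_nonneg g).eq_or_lt with h0 | h0
    · exfalso
      have := hP I J v hv f g
      rw [← h0, mul_zero, mul_zero] at this hcon
      linarith
    · exact h0
  -- normalisation
  set f' : (I → ℤˣ) → X := fun ω => (nrm f)⁻¹ • f ω with hf'
  set g' : (I → ℤˣ) → (X →L[ℝ] ℝ) := fun ω => (nrm g)⁻¹ • g ω with hg'
  have hf1 : (avg fun ω => ‖f' ω‖ ^ 2) = 1 := by
    have h1 : ∀ ω, ‖f' ω‖ ^ 2 = (nrm f)⁻¹ ^ 2 * ‖f ω‖ ^ 2 := by
      intro ω
      simp only [hf', norm_smul, mul_pow, norm_inv, Real.norm_eq_abs, inv_pow, sq_abs]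
    simp only [h1]
    rw [avg_mul_left, ← nrm_sq, ← mul_pow, inv_mul_cancel₀ hnf.ne', one_pow]
  have hg1 : (avg fun ω => ‖g' ω‖ ^ 2) = 1 := by
    have h1 : ∀ ω, ‖g' ω‖ ^ 2 = (nrm g)⁻¹ ^ 2 * ‖g ω‖ ^ 2 := by
      intro ω
      simp only [hg', norm_smul, mul_pow, norm_inv, Real.norm_eq_abs, inv_pow, sq_abs]
    simp only [h1]
    rw [avg_mul_left, ← nrm_sq, ← mul_pow, inv_mul_cancel₀ hng.ne', one_pow]
  have hwf : ∀ S, wc S f' = (nrm f)⁻¹ • wc S f := by
    intro S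
    simp only [wc, hf']
    rw [← avg_smul]
    exact avg_congr fun ω => smul_comm _ _ _
  have hwg : ∀ S, wc S g' = (nrm g)⁻¹ • wc S g := by
    intro S
    simp only [wc, hg']
    rw [← avg_smul]
    exact avg_congr fun ω => smul_comm _ _ _
  set φ : Finset I → ℝ := fun S => v S * (wc S g') (V (wc S f')) with hφ
  have hφ1 : ∀ x : I → ℤˣ, |∑ S, φ S * walsh (S ∩ J) x| ≤ 1 := by
    intro x
    refine phi_le hv.bd J ?_ ?_ x
    · rw [nrm, hf1, Real.sqrt_one]
    · rw [nrm, hg1, Real.sqrt_one]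
  have hlarge : 1 / 1000 * √(#J : ℝ) ≤ |∑ S, tau #(S ∩ J) * φ S| := by
    have h2 : ∑ S, tau #(S ∩ J) * φ S =
        (nrm f)⁻¹ * (nrm g)⁻¹ * ∑ S, tau #(S ∩ J) * v S * (wc S g) (V (wc S f)) := by
      rw [Finset.mul_sum]
      refine Finset.sum_congr rfl fun S _ => ?_
      simp only [hφ]
      rw [hwf, hwg, map_smul]
      simp only [_root_.smul_apply, map_smul, smul_eq_mul]
      ring
    rw [h2, abs_mul, abs_of_pos (by positivity), hJ]
    have h3 : 1 / 1000 * √(n : ℝ) = (nrm f)⁻¹ * (nrm g)⁻¹ *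
        (√(n : ℝ) / 1000 * (nrm f * nrm g)) := by
      field_simp
    rw [h3]
    exact mul_le_mul_of_nonneg_left hcon.le (by positivity)
  -- the parameters
  set b : ℝ := 1 / 2000 with hb
  set β : ℝ := b / √(n : ℝ) with hβ
  have hβ0 : 0 ≤ β := by rw [hβ, hb]; positivity
  set N : ℕ := ⌊√(n : ℝ) / b⌋₊ with hN
  have hN1 : β * N ≤ 1 := by
    have h4 : (N : ℝ) ≤ √(n : ℝ) / b := Nat.floor_le (by rw [hb]; positivity)
    calc β * N ≤ β * (√(n : ℝ) / b) := mul_le_mul_of_nonneg_left h4 hβ0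
      _ = 1 := by
        rw [hβ, hb]
        field_simp
  have hN2 : K < N := by
    have h5 : √(n : ℝ) / b - 1 < N := Nat.sub_one_lt_floor _
    have h6 : K ≤ √(n : ℝ) := (le_max_left _ _).trans hn
    have h7 : √(n : ℝ) / b = 2000 * √(n : ℝ) := by
      rw [hb]
      ring
    rw [h7] at h5
    linarith
  have hodd := odd_sum_ge J φ hφ1 (β := β) (b := b) (c := 1 / 1000) hβ0
    (by rw [hβ, hJ]; field_simp) (by rw [hb]; norm_num) hlarge
  have hγ : (1 : ℝ) / 10000000 ≤ b * (1 / 1000) - 2 * b ^ 3 := by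
    rw [hb]
    norm_num
  have hcount := hK (Om I N) (TT V v N) (TT_finite V hVf v N) (TT_norm hv.bd N) N
    (th J β g') (fun δ => th_norm hβ0 hN1 hg1.le δ)
  have hall : (univ.filter fun k : Fin N => 1 / 10000000 ≤
      ‖avg fun x => sg (x k) • (th J β g' x).comp (TT V v N)‖) = univ := by
    apply Finset.filter_true_of_mem
    intro k _
    exact (hγ.trans hodd).trans (coef_ge hf1.le k)
  rw [hall, Finset.card_univ, Fintype.card_fin] at hcount
  linarith

theorem pp_improve {V : X →L[ℝ] X} (hVf : FiniteDimensional ℝ (LinearMap.range (V : X →ₗ[ℝ] X)))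
    {κ K : ℝ} (hP : PP V κ)
    (hK : ∀ (Γ : Type) [Fintype Γ] [DecidableEq Γ], Count K (PiLp 2 fun _ : Γ => X))
    (hκ : max K 1 ≤ κ) : PP V (9 / 10 * κ) := by
  have hκ1 : 1 ≤ κ := (le_max_right _ _).trans hκ
  set n : ℕ := ⌈(400 * κ) ^ 2⌉₊ with hn
  have hn1 : (400 * κ) ^ 2 ≤ n := Nat.le_ceil _
  have hn2 : (n : ℝ) < (400 * κ) ^ 2 + 1 := Nat.ceil_lt_add_one (by positivity)
  have hs1 : 400 * κ ≤ √(n : ℝ) := Real.le_sqrt_of_sq_le hn1
  have hs2 : √(n : ℝ) ≤ 401 * κ := by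
    rw [Real.sqrt_le_left (by positivity)]
    nlinarith
  have hs0 : 0 < √(n : ℝ) := by linarith
  have hn0 : n ≠ 0 := by
    rintro h
    rw [h] at hs0
    simp at hs0
  have h1 := PP.step hn0 hP hκ1 (by positivity : (0:ℝ) ≤ √(n : ℝ) / 1000)
    (pn_of_count hVf hP hK (n := n) (by linarith))
  have he : Real.exp 1 ^ 2 ≤ 7.3891 := by
    have := Real.exp_one_lt_d9
    have h0 := Real.exp_pos 1
    nlinarith
  have h3 : √(3:ℝ) ≤ 1.7321 := by
    rw [Real.sqrt_le_left (by norm_num)]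
    norm_num
  have h4 : 12 * √3 * Real.exp 1 ^ 2 * κ ^ 2 / √(n : ℝ) ≤ 0.4 * κ := by
    rw [div_le_iff₀ hs0]
    have h5 : 12 * √3 * Real.exp 1 ^ 2 ≤ 12 * 1.7321 * 7.3891 := by
      have := Real.sqrt_nonneg (3:ℝ)
      have h0 : 0 ≤ Real.exp 1 ^ 2 := by positivity
      gcongr
    calc 12 * √3 * Real.exp 1 ^ 2 * κ ^ 2 ≤ 12 * 1.7321 * 7.3891 * κ ^ 2 := by gcongr
      _ ≤ 0.4 * κ * (400 * κ) := by nlinarith [sq_nonneg κ]
      _ ≤ 0.4 * κ * √(n : ℝ) := by gcongr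
  intro I _ _ J v hv
  refine (h1 I J v hv).mono ?_
  linarith

theorem pp_final {V : X →L[ℝ] X} (hVf : FiniteDimensional ℝ (LinearMap.range (V : X →ₗ[ℝ] X)))
    {K : ℝ}
    (hK : ∀ (Γ : Type) [Fintype Γ] [DecidableEq Γ], Count K (PiLp 2 fun _ : Γ => X)) :
    PP V (max K 1) := by
  set κ₀ : ℝ := max K 1 with hκ₀
  have hκ1 : 1 ≤ κ₀ := le_max_right _ _
  obtain ⟨R, hR0, hR⟩ := H1.finite_rank_bound V hVf
  have hPR : PP V R := by
    intro I _ _ J v hv f g
    have := hR I (fun S => tau #(S ∩ J) * v S) (by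
      intro S
      rw [abs_mul]
      exact mul_le_one₀ (abs_tau_le_one _) (abs_nonneg _) (hv.abs_le S)) f g
    rw [mul_assoc] at this
    exact this
  have hmono : ∀ a b : ℝ, a ≤ b → PP V a → PP V b := by
    intro a b hab ha I _ _ J v hv
    exact (ha I J v hv).mono hab
  have hind : ∀ j : ℕ, PP V (max κ₀ ((9 / 10) ^ j * R)) := by
    intro j
    induction j with
    | zero => exact hmono _ _ (by simp) hPR
    | succ j ih =>
      have h1 := pp_improve hVf ih hK (le_max_left _ _)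
      refine hmono _ _ ?_ h1
      rcases le_total κ₀ ((9 / 10) ^ j * R) with h | h
      · rw [max_eq_right h]
        refine le_trans (le_of_eq ?_) (le_max_right _ _)
        ring
      · rw [max_eq_left h]
        refine le_trans ?_ (le_max_left _ _)
        linarith
  obtain ⟨j, hj⟩ := exists_pow_lt_of_lt_one (show (0:ℝ) < κ₀ / (R + 1) by positivity)
    (by norm_num : (9 / 10 : ℝ) < 1)
  refine hmono _ _ ?_ (hind j)
  refine max_le le_rfl ?_
  rw [lt_div_iff₀ (by positivity)] at hj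
  have : (9 / 10 : ℝ) ^ j * R ≤ (9 / 10) ^ j * (R + 1) :=
    mul_le_mul_of_nonneg_left (by linarith) (by positivity)
  linarith

/-- A dimension free bound for the number of large coefficients implies K-convexity. -/
theorem q1_of_count {q r : ℝ}
    (h : ∀ C : ℝ, ∃ K : ℝ, ∀ (Y : Type u) [NormedAddCommGroup Y] [NormedSpace ℝ Y]
      [CompleteSpace Y], CotypeWith q C Y → CotypeWith r C (Y →L[ℝ] ℝ) → Count K Y)
    (X : Type u) [NormedAddCommGroup X] [NormedSpace ℝ X] [CompleteSpace X]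
    (hB : HasBAP X) (hq : HasCotype q X) (hr : HasCotype r (X →L[ℝ] ℝ)) : IsKConvex X := by
  obtain ⟨hq2, C₁, hC₁⟩ := hq
  obtain ⟨hr2, C₂, hC₂⟩ := hr
  set C : ℝ := max (max C₁ C₂) 0 with hC
  have hC0 : 0 ≤ C := le_max_right _ _
  have hX : CotypeWith q C X :=
    CotypeWith.mono' hC₁ ((le_max_left _ _).trans (le_max_left _ _))
  have hX' : CotypeWith r C (X →L[ℝ] ℝ) :=
    CotypeWith.mono' hC₂ ((le_max_right _ _).trans (le_max_left _ _))
  obtain ⟨K, hK⟩ := h C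
  have hKK : ∀ (Γ : Type) [Fintype Γ] [DecidableEq Γ], Count K (PiLp 2 fun _ : Γ => X) := by
    intro Γ _ _
    exact hK _ (HM.cotypeWith_pilp hq2 hC0 hX Γ) (cotype_dual_pilp hr2 hC0 hX' Γ)
  refine H1.kconvex_of_bap hB ⟨max K 1, ?_⟩
  intro V hVf hV1 n f
  have := norm_rad_le (by positivity : (0:ℝ) ≤ max K 1) (pp_final hVf hKK) hV1 f
  exact this

end Vale.Agent.P111.EZ
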