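import Vale.Agent.P111.Bdl.B1

/-! Biased product densities and the level sums of a bounded function on the cube. -/

namespace Vale.Agent.P111.EZ

open Finset Vale.Agent.P111

set_option linter.unusedSectionVars false
set_option linter.unusedSimpArgs false

variable {I : Type} [Fintype I] [DecidableEq I] {N : ℕ}

/-- Restriction of a point to the coordinates in `J`. -/
def pj (J : Finset I) (y : I → ℤˣ) : I → ℤˣ := fun i => if i ∈ J then y i else 1

theorem walsh_pj (J S : Finset I) (y : I → ℤˣ) : walsh S (pj J y) = walsh (S ∩ J) y := by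
  rw [walsh_eq_prod_univ, walsh_eq_prod_univ]
  refine Finset.prod_congr rfl fun i _ => ?_
  by_cases h1 : i ∈ S <;> by_cases h2 : i ∈ J <;> simp [pj, h1, h2, sg_one]

/-- The density of `y` given `δ` and the points `x`. -/
noncomputable def dens (J : Finset I) (β : ℝ) (δ : Fin N → ℤˣ) (x : I → Fin N → ℤˣ)
    (y : I → ℤˣ) : ℝ :=
  ∏ j ∈ J, (1 + β * (sg (y j) * ∑ l, sg (δ l) * sg (x j l)))

theorem dens_nonneg {J : Finset I} {β : ℝ} (hβ : 0 ≤ β) (hN : β * N ≤ 1) (δ : Fin N → ℤˣ)
    (x : I → Fin N → ℤˣ) (y : I → ℤˣ) : 0 ≤ dens J β δ x y := by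
  refine Finset.prod_nonneg fun j _ => ?_
  have h1 : |sg (y j) * ∑ l, sg (δ l) * sg (x j l)| ≤ N := by
    rw [abs_mul, abs_sg, one_mul]
    refine (Finset.abs_sum_le_sum_abs _ _).trans ?_
    simp [abs_mul, abs_sg]
  have h2 := neg_abs_le (sg (y j) * ∑ l, sg (δ l) * sg (x j l))
  have h3 : β * (-(N:ℝ)) ≤ β * (sg (y j) * ∑ l, sg (δ l) * sg (x j l)) :=
    mul_le_mul_of_nonneg_left (by linarith) hβ
  linarith

theorem dens_eq (J : Finset I) (β : ℝ) (δ : Fin N → ℤˣ) (x : I → Fin N → ℤˣ) (y : I → ℤˣ) :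
    dens J β δ x y =
      ∏ j, if j ∈ J then 1 + β * (sg (y j) * ∑ l, sg (δ l) * sg (x j l)) else 1 := by
  rw [dens, Finset.prod_ite_mem, Finset.univ_inter]

theorem avg_dens (J : Finset I) (β : ℝ) (δ : Fin N → ℤˣ) (x : I → Fin N → ℤˣ) :
    (avg fun y => dens J β δ x y) = 1 := by
  simp only [dens_eq]
  rw [avg_pi_prod (fun j u =>
    if j ∈ J then 1 + β * (sg u * ∑ l, sg (δ l) * sg (x j l)) else 1)]
  refine Finset.prod_eq_one fun j _ => ?_
  rw [avg_units]
  split_ifs
  · rw [sg_one, sg_neg_one]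
    ring
  · norm_num

theorem avg_sg_pair {N : ℕ} (k l : Fin N) :
    (avg fun a : Fin N → ℤˣ => sg (a l) * sg (a k)) = if l = k then 1 else 0 := by
  have h := avg_walsh_mul_walsh ({l} : Finset (Fin N)) {k}
  simp only [walsh_singleton] at h
  rw [h]
  simp only [Finset.singleton_inj]

theorem avg_dens_walsh (J T : Finset I) (hT : T ⊆ J) (β : ℝ) (δ : Fin N → ℤˣ) (k : Fin N) :
    (avg fun x : I → Fin N → ℤˣ => avg fun y : I → ℤˣ =>
      dens J β δ x y * (walsh T (fun i => x i k) * walsh T y)) = (β * sg (δ k)) ^ #T := by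
  have h1 : ∀ x : I → Fin N → ℤˣ, (avg fun y : I → ℤˣ =>
      dens J β δ x y * (walsh T (fun i => x i k) * walsh T y)) =
      ∏ j, if j ∈ T then β * (∑ l, sg (δ l) * sg (x j l)) * sg (x j k) else 1 := by
    intro x
    have h2 : ∀ y : I → ℤˣ, dens J β δ x y * (walsh T (fun i => x i k) * walsh T y) =
        ∏ j, ((if j ∈ J then 1 + β * (sg (y j) * ∑ l, sg (δ l) * sg (x j l)) else 1) *
          ((if j ∈ T then sg (x j k) else 1) * (if j ∈ T then sg (y j) else 1))) := by
      intro y
      rw [dens_eq, walsh_eq_prod_univ, walsh_eq_prod_univ, Finset.prod_mul_distrib,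
        Finset.prod_mul_distrib]
    simp only [h2]
    rw [avg_pi_prod (fun j u =>
      (if j ∈ J then 1 + β * (sg u * ∑ l, sg (δ l) * sg (x j l)) else 1) *
          ((if j ∈ T then sg (x j k) else 1) * (if j ∈ T then sg u else 1)))]
    refine Finset.prod_congr rfl fun j _ => ?_
    rw [avg_units]
    by_cases hj : j ∈ T
    · have hj' := hT hj
      simp only [hj, hj', if_true, sg_one, sg_neg_one]
      ring
    · by_cases hj' : j ∈ J
      · simp only [hj, hj', if_true, if_false, sg_one, sg_neg_one]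
        ring
      · simp only [hj, hj', if_false]
        norm_num
  simp only [h1]
  rw [avg_pi_prod (fun j (a : Fin N → ℤˣ) =>
    if j ∈ T then β * (∑ l, sg (δ l) * sg (a l)) * sg (a k) else 1)]
  have h3 : ∀ j, (avg fun a : Fin N → ℤˣ =>
      if j ∈ T then β * (∑ l, sg (δ l) * sg (a l)) * sg (a k) else 1) =
      if j ∈ T then β * sg (δ k) else 1 := by
    intro j
    split_ifs with hj
    · have h4 : ∀ a : Fin N → ℤˣ, β * (∑ l, sg (δ l) * sg (a l)) * sg (a k) =
          β * ∑ l, sg (δ l) * (sg (a l) * sg (a k)) := by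
        intro a
        rw [mul_assoc, Finset.sum_mul]
        congr 1
        exact Finset.sum_congr rfl fun l _ => by ring
      simp only [h4]
      rw [avg_mul_left, avg_sum]
      simp only [avg_mul_left, avg_sg_pair]
      simp
    · exact avg_const _
  simp only [h3]
  rw [Finset.prod_ite_mem, Finset.univ_inter, Finset.prod_const]

/-- Sums of the coefficients of a bounded function over a level. -/
theorem level_sum_le (J : Finset I) (φ : Finset I → ℝ)
    (hφ : ∀ x : I → ℤˣ, |∑ S, φ S * walsh (S ∩ J) x| ≤ 1) (m : ℕ) :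
    |∑ S, if #(S ∩ J) = m then φ S else 0| ≤ √(#J : ℝ) ^ m := by
  set e : (I → ℤˣ) → ℝ := fun x => ∑ T ∈ J.powersetCard m, walsh T x with he
  have h1 : (∑ S, if #(S ∩ J) = m then φ S else 0) =
      avg fun x => (∑ S, φ S * walsh (S ∩ J) x) * e x := by
    have h2 : ∀ x, (∑ S, φ S * walsh (S ∩ J) x) * e x =
        ∑ S, φ S * ∑ T ∈ J.powersetCard m, walsh (S ∩ J) x * walsh T x := by
      intro x
      rw [Finset.sum_mul]
      refine Finset.sum_congr rfl fun S _ => ?_
      rw [he, mul_assoc, Finset.mul_sum]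
    simp only [h2]
    rw [avg_sum]
    refine Finset.sum_congr rfl fun S _ => ?_
    rw [avg_mul_left, avg_sum]
    simp only [avg_walsh_mul_walsh]
    rw [Finset.sum_ite_eq]
    simp only [Finset.mem_powersetCard, Finset.inter_subset_right, true_and]
    split_ifs <;> simp
  have h3 : (avg fun x => e x ^ 2) ≤ (#J : ℝ) ^ m := by
    have h4 : ∀ x, e x ^ 2 = ∑ T ∈ J.powersetCard m, ∑ T' ∈ J.powersetCard m,
        walsh T x * walsh T' x := by
      intro x
      rw [sq, he, Finset.sum_mul_sum]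
    simp only [h4]
    rw [avg_sum]
    simp only [avg_sum, avg_walsh_mul_walsh]
    have h5 : ∀ T ∈ J.powersetCard m, ∑ T' ∈ J.powersetCard m, (if T = T' then (1:ℝ) else 0) =
        1 := by
      intro T hT
      rw [Finset.sum_ite_eq, if_pos hT]
    rw [Finset.sum_congr rfl h5]
    simp only [Finset.sum_const, nsmul_eq_mul, mul_one, Finset.card_powersetCard]
    exact_mod_cast Nat.choose_le_pow _ _
  rw [h1]
  have h6 : (avg fun x => (∑ S, φ S * walsh (S ∩ J) x) * e x) ^ 2 ≤ (#J : ℝ) ^ m := by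
    refine (avg_mul_sq_le _ _).trans ?_
    calc (avg fun x : I → ℤˣ => (∑ S, φ S * walsh (S ∩ J) x) ^ 2) * (avg fun x => e x ^ 2)
        ≤ 1 * (#J : ℝ) ^ m := by
          refine mul_le_mul ?_ h3 (avg_nonneg fun _ => sq_nonneg _) zero_le_one
          calc (avg fun x : I → ℤˣ => (∑ S, φ S * walsh (S ∩ J) x) ^ 2)
              ≤ avg fun _ : I → ℤˣ => (1:ℝ) := by
                refine avg_mono fun x => ?_
                rw [← sq_abs]
                exact pow_le_one₀ (abs_nonneg _) (hφ x)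
            _ = 1 := avg_const _
      _ = _ := one_mul _
  have h7 : (√(#J : ℝ) ^ m) ^ 2 = (#J : ℝ) ^ m := by
    rw [← pow_mul, mul_comm, pow_mul, Real.sq_sqrt (by positivity)]
  exact abs_le_of_sq_le_sq (by rw [h7]; exact h6) (by positivity)

/-- The odd part of the biased average is bounded below. -/
theorem odd_sum_ge (J : Finset I) (φ : Finset I → ℝ)
    (hφ : ∀ x : I → ℤˣ, |∑ S, φ S * walsh (S ∩ J) x| ≤ 1) {β b c : ℝ} (hβ : 0 ≤ β)
    (hb : β * √(#J : ℝ) = b) (hb2 : b ≤ 1 / 2)
    (h1 : c * √(#J : ℝ) ≤ |∑ S, tau #(S ∩ J) * φ S|) :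
    b * c - 2 * b ^ 3 ≤ |∑ S, if Odd #(S ∩ J) then φ S * β ^ #(S ∩ J) else 0| := by
  have hb0 : 0 ≤ b := by rw [← hb]; positivity
  set Φ : ℕ → ℝ := fun m => ∑ S, if #(S ∩ J) = m then φ S else 0 with hΦ
  have hΦb : ∀ m, |β ^ m * Φ m| ≤ b ^ m := by
    intro m
    rw [abs_mul, abs_of_nonneg (pow_nonneg hβ m), ← hb, mul_pow]
    exact mul_le_mul_of_nonneg_left (level_sum_le J φ hφ m) (pow_nonneg hβ m)
  set n := Fintype.card I with hn
  have hsum : (∑ S, if Odd #(S ∩ J) then φ S * β ^ #(S ∩ J) else 0) =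
      ∑ m ∈ range (n + 1), if Odd m then β ^ m * Φ m else 0 := by
    have h2 : ∀ S : Finset I, (if Odd #(S ∩ J) then φ S * β ^ #(S ∩ J) else 0) =
        ∑ m ∈ range (n + 1), if Odd m then β ^ m * (if #(S ∩ J) = m then φ S else 0) else 0 := by
      intro S
      rw [Finset.sum_eq_single #(S ∩ J)]
      · rw [if_pos rfl, mul_comm]
      · intro m _ hm
        rw [if_neg (Ne.symm hm), mul_zero, ite_self]
      · intro h
        exfalso
        apply h
        rw [Finset.mem_range]
        have := Finset.card_le_univ (S ∩ J)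
        omega
    simp only [h2]
    rw [Finset.sum_comm]
    refine Finset.sum_congr rfl fun m _ => ?_
    split_ifs
    · rw [hΦ, Finset.mul_sum]
    · simp
  have hsplit : (∑ m ∈ range (n + 1), if Odd m then β ^ m * Φ m else 0) =
      β * Φ 1 + ∑ m ∈ Finset.Ico 3 (n + 1), if Odd m then β ^ m * Φ m else 0 := by
    rcases Nat.lt_or_ge n 1 with h0 | h0
    · have hn0 : n = 0 := by omega
      have hΦ1 : Φ 1 = 0 := by
        simp only [hΦ]
        refine Finset.sum_eq_zero fun S _ => ?_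
        rw [if_neg]
        have := Finset.card_le_univ (S ∩ J)
        omega
      rw [hn0, hΦ1]
      simp
    · rcases Nat.lt_or_ge n 2 with h2 | h2
      · have hn1 : n = 1 := by omega
        rw [hn1]
        simp [Finset.sum_range_succ]
      · have e1 : range (n + 1) = insert 0 (insert 1 (insert 2 (Finset.Ico 3 (n + 1)))) := by
          ext m
          simp only [Finset.mem_range, Finset.mem_insert, Finset.mem_Ico]
          omega
        rw [e1, Finset.sum_insert (by simp), Finset.sum_insert (by simp),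
          Finset.sum_insert (by simp)]
        rw [if_neg (by decide), if_pos (by decide), if_neg (by decide)]
        ring
  have htail : |∑ m ∈ Finset.Ico 3 (n + 1), if Odd m then β ^ m * Φ m else 0| ≤ 2 * b ^ 3 := by
    calc |∑ m ∈ Finset.Ico 3 (n + 1), if Odd m then β ^ m * Φ m else 0|
        ≤ ∑ m ∈ Finset.Ico 3 (n + 1), |if Odd m then β ^ m * Φ m else 0| :=
          Finset.abs_sum_le_sum_abs _ _
      _ ≤ ∑ m ∈ Finset.Ico 3 (n + 1), b ^ m := by
          refine Finset.sum_le_sum fun m _ => ?_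
          split_ifs
          · exact hΦb m
          · rw [abs_zero]; positivity
      _ ≤ b ^ 3 / (1 - b) := geom_sum_Ico_le_of_lt_one hb0 (by linarith)
      _ ≤ 2 * b ^ 3 := by
          rw [div_le_iff₀ (by linarith)]
          nlinarith [pow_nonneg hb0 3]
  have hΦ1 : Φ 1 = ∑ S, tau #(S ∩ J) * φ S := by
    simp only [hΦ, tau]
    refine Finset.sum_congr rfl fun S _ => ?_
    split_ifs <;> simp
  have hmain : b * c ≤ |β * Φ 1| := by
    rw [abs_mul, abs_of_nonneg hβ, hΦ1]
    calc b * c = β * (c * √(#J : ℝ)) := by rw [← hb]; ring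
      _ ≤ _ := mul_le_mul_of_nonneg_left h1 hβ
  rw [hsum, hsplit]
  have h8 := abs_sub_abs_le_abs_sub (β * Φ 1)
    (-∑ m ∈ Finset.Ico 3 (n + 1), if Odd m then β ^ m * Φ m else 0)
  rw [sub_neg_eq_add, abs_neg] at h8
  linarith

end Vale.Agent.P111.EZ
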