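import Vale.Agent.P111.EZ.Sys1

/-! The system of functionals attached to a large Rademacher projection. -/

namespace Vale.Agent.P111.EZ

open Finset Vale.Agent.P111

set_option linter.unusedSectionVars false

variable {X : Type*} [NormedAddCommGroup X] [NormedSpace ℝ X] {I : Type} [Fintype I]
  [DecidableEq I] {N : ℕ}

/-- The index set of the `ℓ₂`-sum. -/
abbrev Om (I : Type) (N : ℕ) : Type := (I → ℤˣ) × (I → Fin N → ℤˣ)

/-- Walsh coefficients in the first variable. -/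
noncomputable def wcO (X : Type*) [NormedAddCommGroup X] [NormedSpace ℝ X] (S : Finset I)
    (x : I → Fin N → ℤˣ) : (Om I N → X) →L[ℝ] X :=
  (Fintype.card (I → ℤˣ) : ℝ)⁻¹ • ∑ ω : I → ℤˣ, walsh S ω •
    ContinuousLinearMap.proj (R := ℝ) (φ := fun _ : Om I N => X) (ω, x)

theorem wcO_apply (S : Finset I) (x : I → Fin N → ℤˣ) (f : Om I N → X) :
    wcO X S x f = wc S fun ω => f (ω, x) := by
  simp [wcO, wc, avg]

/-- The operator `M_v ⊗ V` on the `ℓ₂`-sum. -/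
noncomputable def TT (V : X →L[ℝ] X) (v : Finset I → ℝ) (N : ℕ) :
    PiLp 2 (fun _ : Om I N => X) →L[ℝ] PiLp 2 (fun _ : Om I N => X) :=
  ((PiLp.continuousLinearEquiv 2 ℝ (fun _ : Om I N => X)).symm : _ →L[ℝ] _) ∘L
    (ContinuousLinearMap.pi fun p : Om I N =>
      ∑ S : Finset I, (v S * walsh S p.1) • (V ∘L wcO X S p.2)) ∘L
      ((PiLp.continuousLinearEquiv 2 ℝ (fun _ : Om I N => X)) : _ →L[ℝ] _)

theorem TT_apply (V : X →L[ℝ] X) (v : Finset I → ℝ) (h : PiLp 2 (fun _ : Om I N => X))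
    (p : Om I N) : TT V v N h p =
      ∑ S : Finset I, (v S * walsh S p.1) • V (wc S fun ω => h (ω, p.2)) := by
  simp only [TT, ContinuousLinearMap.comp_apply, ContinuousLinearEquiv.coe_coe,
    PiLp.coe_symm_continuousLinearEquiv, PiLp.coe_continuousLinearEquiv]
  simp [wcO_apply]

theorem TT_mem (V : X →L[ℝ] X) (v : Finset I → ℝ) (h : PiLp 2 (fun _ : Om I N => X))
    (p : Om I N) : TT V v N h p ∈ LinearMap.range (V : X →ₗ[ℝ] X) := by
  rw [TT_apply]
  refine Submodule.sum_mem _ fun S _ => Submodule.smul_mem _ _ ?_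
  exact LinearMap.mem_range_self (V : X →ₗ[ℝ] X) _

theorem TT_finite (V : X →L[ℝ] X) (hV : FiniteDimensional ℝ (LinearMap.range (V : X →ₗ[ℝ] X)))
    (v : Finset I → ℝ) (N : ℕ) :
    FiniteDimensional ℝ (LinearMap.range
      (TT V v N : PiLp 2 (fun _ : Om I N => X) →ₗ[ℝ] PiLp 2 (fun _ : Om I N => X))) := by
  set R := LinearMap.range (V : X →ₗ[ℝ] X) with hR
  let ι : (Om I N → R) →ₗ[ℝ] PiLp 2 (fun _ : Om I N => X) :=
    { toFun := fun u => WithLp.toLp 2 fun p => (u p : X)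
      map_add' := by
        intro a b
        ext p
        simp
      map_smul' := by
        intro c a
        ext p
        simp }
  have hle : LinearMap.range
      (TT V v N : PiLp 2 (fun _ : Om I N => X) →ₗ[ℝ] PiLp 2 (fun _ : Om I N => X)) ≤
      LinearMap.range ι := by
    rintro _ ⟨h, rfl⟩
    refine ⟨fun p => ⟨TT V v N h p, TT_mem V v h p⟩, ?_⟩
    ext p
    rfl
  exact Submodule.finiteDimensional_of_le hle

theorem op_nrm {V : X →L[ℝ] X} {v : Finset I → ℝ} (hv : Bd V v 1) (f : (I → ℤˣ) → X) :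
    (avg fun ω : I → ℤˣ => ‖∑ S : Finset I, (v S * walsh S ω) • V (wc S f)‖ ^ 2) ≤
      avg fun ω => ‖f ω‖ ^ 2 := by
  set F : (I → ℤˣ) → X := fun ω => ∑ S : Finset I, (v S * walsh S ω) • V (wc S f) with hF
  choose g hg1 hg2 using fun ω => exists_norming (F ω)
  have h1 := hv f g
  have h2 : ∑ S : Finset I, v S * (wc S g) (V (wc S f)) = nrm F ^ 2 := by
    rw [nrm_sq]
    have h3 : ∀ ω, ‖F ω‖ ^ 2 = ∑ S : Finset I, v S * (walsh S ω * g ω (V (wc S f))) := by
      intro ω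
      rw [← hg2 ω]
      simp only [hF, map_sum, map_smul, smul_eq_mul]
      exact Finset.sum_congr rfl fun S _ => by ring
    simp only [h3]
    rw [avg_sum]
    refine Finset.sum_congr rfl fun S _ => ?_
    rw [avg_mul_left, wc_apply]
  rw [h2, abs_of_nonneg (sq_nonneg _), one_mul] at h1
  have h4 : nrm g ≤ nrm F := by
    apply Real.sqrt_le_sqrt
    exact avg_mono fun ω => by gcongr; exact hg1 ω
  have h5 : nrm F ≤ nrm f := by
    rcases (nrm_nonneg F).eq_or_lt with h0 | h0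
    · rw [← h0]; exact nrm_nonneg f
    · have h6 : nrm F * nrm F ≤ nrm f * nrm F := by
        calc nrm F * nrm F = nrm F ^ 2 := by ring
          _ ≤ nrm f * nrm g := h1
          _ ≤ nrm f * nrm F := mul_le_mul_of_nonneg_left h4 (nrm_nonneg f)
      exact le_of_mul_le_mul_right h6 h0
  have h7 : nrm F ^ 2 ≤ nrm f ^ 2 := pow_le_pow_left₀ (nrm_nonneg F) h5 2
  rwa [nrm_sq, nrm_sq] at h7

theorem TT_norm {V : X →L[ℝ] X} {v : Finset I → ℝ} (hv : Bd V v 1) (N : ℕ) :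
    ‖TT V v N‖ ≤ 1 := by
  refine ContinuousLinearMap.opNorm_le_bound _ zero_le_one fun h => ?_
  rw [one_mul]
  refine le_of_sq_le_sq ?_ (norm_nonneg _)
  rw [PiLp.norm_sq_eq_of_L2, PiLp.norm_sq_eq_of_L2, Fintype.sum_prod_type_right,
    Fintype.sum_prod_type_right]
  refine Finset.sum_le_sum fun x _ => ?_
  have h1 := op_nrm hv fun ω => h (ω, x)
  have h2 := mul_le_mul_of_nonneg_left h1
    (by positivity : (0:ℝ) ≤ (Fintype.card (I → ℤˣ) : ℝ))
  rw [← sum_eq_card_mul_avg, ← sum_eq_card_mul_avg] at h2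
  refine le_trans (le_of_eq ?_) h2
  refine Finset.sum_congr rfl fun ω _ => ?_
  rw [TT_apply]

/-- The averaged functionals. -/
noncomputable def Gd (J : Finset I) (β : ℝ) (g : (I → ℤˣ) → (X →L[ℝ] ℝ)) (δ : Fin N → ℤˣ)
    (p : Om I N) : X →L[ℝ] ℝ := avg fun y => dens J β δ p.2 y • g (pj J y * p.1)

theorem Gd_apply (J : Finset I) (β : ℝ) (g : (I → ℤˣ) → (X →L[ℝ] ℝ)) (δ : Fin N → ℤˣ)
    (p : Om I N) (z : X) :
    Gd J β g δ p z = avg fun y => dens J β δ p.2 y * g (pj J y * p.1) z := by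
  rw [Gd, avg_apply]
  rfl

theorem Gd_sq_le {J : Finset I} {β : ℝ} (hβ : 0 ≤ β) (hN : β * N ≤ 1)
    (g : (I → ℤˣ) → (X →L[ℝ] ℝ)) (δ : Fin N → ℤˣ) :
    (avg fun p : Om I N => ‖Gd J β g δ p‖ ^ 2) ≤ avg fun ω => ‖g ω‖ ^ 2 := by
  have h1 : ∀ p : Om I N, ‖Gd J β g δ p‖ ^ 2 ≤
      avg fun y => dens J β δ p.2 y * ‖g (pj J y * p.1)‖ ^ 2 := by
    intro p
    have h2 : ‖Gd J β g δ p‖ ≤ avg fun y => √(dens J β δ p.2 y) *
        (√(dens J β δ p.2 y) * ‖g (pj J y * p.1)‖) := by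
      refine ContinuousLinearMap.opNorm_le_bound _ ?_ fun z => ?_
      · exact avg_nonneg fun y => by positivity
      · rw [Gd_apply, Real.norm_eq_abs]
        refine (abs_avg_le _).trans ?_
        rw [← avg_mul_right]
        refine avg_mono fun y => ?_
        rw [← mul_assoc, Real.mul_self_sqrt (dens_nonneg hβ hN δ p.2 y), abs_mul,
          abs_of_nonneg (dens_nonneg hβ hN δ p.2 y), mul_assoc]
        exact mul_le_mul_of_nonneg_left ((g _).le_opNorm z) (dens_nonneg hβ hN δ p.2 y)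
    calc ‖Gd J β g δ p‖ ^ 2 ≤ (avg fun y => √(dens J β δ p.2 y) *
        (√(dens J β δ p.2 y) * ‖g (pj J y * p.1)‖)) ^ 2 := pow_le_pow_left₀ (norm_nonneg _) h2 2
      _ ≤ (avg fun y => √(dens J β δ p.2 y) ^ 2) *
          avg fun y => (√(dens J β δ p.2 y) * ‖g (pj J y * p.1)‖) ^ 2 := avg_mul_sq_le _ _
      _ = 1 * avg fun y => dens J β δ p.2 y * ‖g (pj J y * p.1)‖ ^ 2 := by
          congr 1
          · rw [← avg_dens J β δ p.2]
            exact avg_congr fun y => Real.sq_sqrt (dens_nonneg hβ hN δ p.2 y)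
          · refine avg_congr fun y => ?_
            rw [mul_pow, Real.sq_sqrt (dens_nonneg hβ hN δ p.2 y)]
      _ = _ := one_mul _
  refine (avg_mono h1).trans ?_
  rw [avg_prod, avg_comm]
  have h3 : ∀ x : I → Fin N → ℤˣ, (avg fun ω : I → ℤˣ => avg fun y => dens J β δ x y *
      ‖g (pj J y * ω)‖ ^ 2) = avg fun ω => ‖g ω‖ ^ 2 := by
    intro x
    rw [avg_comm]
    simp only [avg_mul_left]
    have h4 : ∀ y : I → ℤˣ, (avg fun ω : I → ℤˣ => ‖g (pj J y * ω)‖ ^ 2) =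
        avg fun ω => ‖g ω‖ ^ 2 := fun y =>
      avg_comp_equiv (Equiv.mulLeft (pj J y)) (fun ω => ‖g ω‖ ^ 2)
    simp only [h4]
    rw [avg_mul_right, avg_dens, one_mul]
  simp only [h3]
  rw [avg_const]

/-- The functionals. -/
noncomputable def th (J : Finset I) (β : ℝ) (g : (I → ℤˣ) → (X →L[ℝ] ℝ)) (δ : Fin N → ℤˣ) :
    PiLp 2 (fun _ : Om I N => X) →L[ℝ] ℝ :=
  (√(Fintype.card (Om I N) : ℝ) * (Fintype.card (Om I N) : ℝ)⁻¹) •
    ((∑ p : Om I N, (Gd J β g δ p) ∘L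
      ContinuousLinearMap.proj (R := ℝ) (φ := fun _ : Om I N => X) p) ∘L
      ((PiLp.continuousLinearEquiv 2 ℝ (fun _ : Om I N => X)) : _ →L[ℝ] _))

theorem th_apply (J : Finset I) (β : ℝ) (g : (I → ℤˣ) → (X →L[ℝ] ℝ)) (δ : Fin N → ℤˣ)
    (h : PiLp 2 (fun _ : Om I N => X)) :
    th J β g δ h = √(Fintype.card (Om I N) : ℝ) * avg fun p => Gd J β g δ p (h p) := by
  simp only [th, avg, smul_eq_mul]
  simp [mul_assoc]

theorem th_norm {J : Finset I} {β : ℝ} (hβ : 0 ≤ β) (hN : β * N ≤ 1)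
    {g : (I → ℤˣ) → (X →L[ℝ] ℝ)} (hg : (avg fun ω => ‖g ω‖ ^ 2) ≤ 1) (δ : Fin N → ℤˣ) :
    ‖th J β g δ‖ ≤ 1 := by
  refine ContinuousLinearMap.opNorm_le_bound _ zero_le_one fun h => ?_
  rw [one_mul, th_apply, Real.norm_eq_abs, abs_mul, abs_of_nonneg (Real.sqrt_nonneg _)]
  have hc : (0:ℝ) < Fintype.card (Om I N) := by exact_mod_cast Fintype.card_pos
  have h1 : |avg fun p => Gd J β g δ p (h p)| ≤ √(avg fun p : Om I N => ‖h p‖ ^ 2) := by
    calc |avg fun p => Gd J β g δ p (h p)| ≤ avg fun p => |Gd J β g δ p (h p)| := abs_avg_le _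
      _ ≤ avg fun p => ‖Gd J β g δ p‖ * ‖h p‖ := avg_mono fun p => (Gd J β g δ p).le_opNorm _
      _ ≤ √(avg fun p => ‖Gd J β g δ p‖ ^ 2) * √(avg fun p : Om I N => ‖h p‖ ^ 2) :=
          avg_mul_le_sqrt _ _
      _ ≤ 1 * √(avg fun p : Om I N => ‖h p‖ ^ 2) := by
          refine mul_le_mul_of_nonneg_right ?_ (Real.sqrt_nonneg _)
          rw [Real.sqrt_le_one]
          exact (Gd_sq_le hβ hN g δ).trans hg
      _ = _ := one_mul _
  have h2 : √(avg fun p : Om I N => ‖h p‖ ^ 2) =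
      (√(Fintype.card (Om I N) : ℝ))⁻¹ * ‖h‖ := by
    rw [avg, smul_eq_mul, ← PiLp.norm_sq_eq_of_L2 (fun _ : Om I N => X) h,
      Real.sqrt_mul (by positivity), Real.sqrt_inv, Real.sqrt_sq (norm_nonneg _)]
  calc √(Fintype.card (Om I N) : ℝ) * |avg fun p => Gd J β g δ p (h p)|
      ≤ √(Fintype.card (Om I N) : ℝ) * ((√(Fintype.card (Om I N) : ℝ))⁻¹ * ‖h‖) := by
        rw [← h2]
        exact mul_le_mul_of_nonneg_left h1 (Real.sqrt_nonneg _)
    _ = ‖h‖ := by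
        have : √(Fintype.card (Om I N) : ℝ) ≠ 0 := (Real.sqrt_pos.2 hc).ne'
        field_simp

/-- The vectors. -/
noncomputable def ek (J : Finset I) (f : (I → ℤˣ) → X) (k : Fin N) :
    PiLp 2 (fun _ : Om I N => X) :=
  WithLp.toLp 2 fun p => f (pj J (fun i => p.2 i k) * p.1)

theorem ek_norm {J : Finset I} {f : (I → ℤˣ) → X} (hf : (avg fun ω => ‖f ω‖ ^ 2) ≤ 1)
    (k : Fin N) : ‖ek J f k‖ ≤ √(Fintype.card (Om I N) : ℝ) := by
  refine Real.le_sqrt_of_sq_le ?_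
  rw [PiLp.norm_sq_eq_of_L2, sum_eq_card_mul_avg]
  have h1 : (avg fun p : Om I N => ‖(ek J f k) p‖ ^ 2) = avg fun ω => ‖f ω‖ ^ 2 := by
    rw [avg_prod, avg_comm]
    have h2 : ∀ x : I → Fin N → ℤˣ, (avg fun ω : I → ℤˣ => ‖(ek J f k) (ω, x)‖ ^ 2) =
        avg fun ω => ‖f ω‖ ^ 2 := fun x =>
      avg_comp_equiv (Equiv.mulLeft (pj J fun i => x i k)) (fun ω => ‖f ω‖ ^ 2)
    simp only [h2]
    rw [avg_const]
  rw [h1]
  have hc : (0:ℝ) ≤ Fintype.card (Om I N) := by positivity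
  nlinarith

theorem TT_ek (V : X →L[ℝ] X) (v : Finset I → ℝ) (J : Finset I) (f : (I → ℤˣ) → X) (k : Fin N)
    (p : Om I N) : TT V v N (ek J f k) p =
      ∑ S : Finset I, (v S * walsh S p.1 * walsh (S ∩ J) (fun i => p.2 i k)) • V (wc S f) := by
  rw [TT_apply]
  refine Finset.sum_congr rfl fun S _ => ?_
  have h1 : (wc S fun ω => (ek J f k) (ω, p.2)) =
      walsh (S ∩ J) (fun i => p.2 i k) • wc S f := by
    rw [← walsh_pj]
    exact wc_translate S f (pj J fun i => p.2 i k)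
  rw [h1, map_smul, smul_smul]

theorem th_TT_ek (V : X →L[ℝ] X) (v : Finset I → ℝ) (J : Finset I) (β : ℝ)
    (f : (I → ℤˣ) → X) (g : (I → ℤˣ) → (X →L[ℝ] ℝ)) (δ : Fin N → ℤˣ) (k : Fin N) :
    th J β g δ (TT V v N (ek J f k)) = √(Fintype.card (Om I N) : ℝ) *
      ∑ S : Finset I, v S * (wc S g) (V (wc S f)) * (β * sg (δ k)) ^ #(S ∩ J) := by
  rw [th_apply]
  congr 1
  have h1 : ∀ p : Om I N, Gd J β g δ p (TT V v N (ek J f k) p) =
      ∑ S : Finset I, avg fun y => v S * (dens J β δ p.2 y *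
        walsh (S ∩ J) (fun i => p.2 i k) * (walsh S p.1 * g (pj J y * p.1) (V (wc S f)))) := by
    intro p
    rw [Gd_apply, ← avg_sum]
    refine avg_congr fun y => ?_
    rw [TT_ek, map_sum, Finset.mul_sum]
    refine Finset.sum_congr rfl fun S _ => ?_
    rw [map_smul, smul_eq_mul]
    ring
  simp only [h1]
  rw [avg_sum]
  refine Finset.sum_congr rfl fun S _ => ?_
  rw [avg_prod, avg_comm]
  have h2 : ∀ x : I → Fin N → ℤˣ, (avg fun ω : I → ℤˣ => avg fun y => v S * (dens J β δ x y *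
        walsh (S ∩ J) (fun i => x i k) * (walsh S ω * g (pj J y * ω) (V (wc S f))))) =
      v S * (wc S g) (V (wc S f)) * avg fun y => dens J β δ x y *
        (walsh (S ∩ J) (fun i => x i k) * walsh (S ∩ J) y) := by
    intro x
    rw [avg_comm, ← avg_mul_left]
    refine avg_congr fun y => ?_
    rw [avg_mul_left, avg_mul_left]
    have h3 : (avg fun ω : I → ℤˣ => walsh S ω * g (pj J y * ω) (V (wc S f))) =
        walsh (S ∩ J) y * (wc S g) (V (wc S f)) := by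
      have h4 := wc_translate S (fun ω => g ω (V (wc S f))) (pj J y)
      rw [walsh_pj] at h4
      rw [wc_apply]
      simpa only [wc, smul_eq_mul] using h4
    rw [h3]
    ring
  simp only [h2]
  rw [avg_mul_left, avg_dens_walsh J (S ∩ J) Finset.inter_subset_right]

theorem avg_sg_pow (k : Fin N) (β : ℝ) (m : ℕ) :
    (avg fun δ : Fin N → ℤˣ => sg (δ k) * (β * sg (δ k)) ^ m) = if Odd m then β ^ m else 0 := by
  rcases Nat.even_or_odd m with hm | hm
  · rw [if_neg (by rwa [Nat.not_odd_iff_even])]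
    obtain ⟨a, ha⟩ := hm
    have h1 : ∀ δ : Fin N → ℤˣ, sg (δ k) * (β * sg (δ k)) ^ m = β ^ m * walsh {k} δ := by
      intro δ
      rw [walsh_singleton, mul_pow, ha, ← two_mul, pow_mul (sg (δ k)), sg_sq, one_pow]
      ring
    simp only [h1]
    rw [avg_mul_left, avg_walsh, if_neg (by simp), mul_zero]
  · rw [if_pos hm]
    obtain ⟨a, ha⟩ := hm
    have h1 : ∀ δ : Fin N → ℤˣ, sg (δ k) * (β * sg (δ k)) ^ m = β ^ m := by
      intro δ
      rw [mul_pow, ha, pow_succ (sg (δ k)), pow_mul (sg (δ k)), sg_sq, one_pow, one_mul]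
      have := sg_mul_self (δ k)
      calc sg (δ k) * (β ^ (2 * a + 1) * sg (δ k)) = β ^ (2 * a + 1) * (sg (δ k) * sg (δ k)) := by
            ring
        _ = _ := by rw [this, mul_one]
    simp only [h1]
    rw [avg_const]

/-- The Rademacher coefficients of the system are large. -/
theorem coef_ge {V : X →L[ℝ] X} {v : Finset I → ℝ} {J : Finset I} {β : ℝ}
    {f : (I → ℤˣ) → X} {g : (I → ℤˣ) → (X →L[ℝ] ℝ)} (hf : (avg fun ω => ‖f ω‖ ^ 2) ≤ 1)
    (k : Fin N) :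
    |∑ S : Finset I, if Odd #(S ∩ J) then v S * (wc S g) (V (wc S f)) * β ^ #(S ∩ J) else 0| ≤
      ‖avg fun δ : Fin N → ℤˣ => sg (δ k) • (th J β g δ).comp (TT V v N)‖ := by
  set A := avg fun δ : Fin N → ℤˣ => sg (δ k) • (th J β g δ).comp (TT V v N) with hA
  have hc : (0:ℝ) < √(Fintype.card (Om I N) : ℝ) :=
    Real.sqrt_pos.2 (by exact_mod_cast Fintype.card_pos)
  have h1 : A (ek J f k) = √(Fintype.card (Om I N) : ℝ) *
      ∑ S : Finset I, if Odd #(S ∩ J) then v S * (wc S g) (V (wc S f)) * β ^ #(S ∩ J) else 0 := by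
    rw [hA, avg_apply]
    have h2 : ∀ δ : Fin N → ℤˣ, (sg (δ k) • (th J β g δ).comp (TT V v N)) (ek J f k) =
        √(Fintype.card (Om I N) : ℝ) * ∑ S : Finset I, v S * (wc S g) (V (wc S f)) *
          (sg (δ k) * (β * sg (δ k)) ^ #(S ∩ J)) := by
      intro δ
      have h3 : (sg (δ k) • (th J β g δ).comp (TT V v N)) (ek J f k) =
          sg (δ k) * th J β g δ (TT V v N (ek J f k)) := rfl
      rw [h3, th_TT_ek, mul_left_comm, Finset.mul_sum]
      congr 1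
      exact Finset.sum_congr rfl fun S _ => by ring
    simp only [h2]
    rw [avg_mul_left, avg_sum]
    congr 1
    refine Finset.sum_congr rfl fun S _ => ?_
    rw [avg_mul_left, avg_sg_pow]
    split_ifs <;> simp
  have h4 := A.le_opNorm (ek J f k)
  rw [h1, norm_mul, Real.norm_eq_abs, Real.norm_eq_abs, abs_of_pos hc] at h4
  have h5 : ‖A‖ * ‖ek J f k‖ ≤ ‖A‖ * √(Fintype.card (Om I N) : ℝ) :=
    mul_le_mul_of_nonneg_left (ek_norm hf k) (norm_nonneg _)
  have h6 := h4.trans h5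
  rw [mul_comm (‖A‖)] at h6
  exact le_of_mul_le_mul_left h6 hc

end Vale.Agent.P111.EZ
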